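import Vale.Agent.P096.Two.Corner

/-!
Close algebras with one full corner in common are conjugate by a unitary near the
identity.
-/

namespace Vale.Agent.P096.Two

open scoped InnerProductSpace

universe u

variable {H : Type u} [NormedAddCommGroup H] [InnerProductSpace ℂ H] [CompleteSpace H]

theorem cmp_add (K : Submodule ℂ H) [CompleteSpace K] (x y : H →L[ℂ] H) :
    cmp K (x + y) = cmp K x + cmp K y :=
  ContinuousLinearMap.ext fun k => Subtype.ext <| by simp [cmp_apply]

theorem cmp_smul (K : Submodule ℂ H) [CompleteSpace K] (c : ℂ) (x : H →L[ℂ] H) :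
    cmp K (c • x) = c • cmp K x :=
  ContinuousLinearMap.ext fun k => Subtype.ext <| by simp [cmp_apply]

theorem cmp_sub (K : Submodule ℂ H) [CompleteSpace K] (x y : H →L[ℂ] H) :
    cmp K (x - y) = cmp K x - cmp K y :=
  ContinuousLinearMap.ext fun k => Subtype.ext <| by simp [cmp_apply]

theorem cmp_one (K : Submodule ℂ H) [CompleteSpace K] : cmp K 1 = 1 :=
  ContinuousLinearMap.ext fun k => Subtype.ext <| by rw [cmp_apply]; exact proj_coe K k

/-- The closed subspace generated by the images of `K` under `N`. -/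
noncomputable def hull (N : VonNeumannAlgebra H) (K : Submodule ℂ H) : Submodule ℂ H :=
  (Submodule.span ℂ {x | ∃ n ∈ N, ∃ k ∈ K, n k = x}).topologicalClosure

instance (N : VonNeumannAlgebra H) (K : Submodule ℂ H) : CompleteSpace (hull N K) :=
  (Submodule.isClosed_topologicalClosure _).completeSpace_coe

theorem mem_hull {N : VonNeumannAlgebra H} {K : Submodule ℂ H} {n : H →L[ℂ] H} (hn : n ∈ N)
    {k : H} (hk : k ∈ K) : n k ∈ hull N K :=
  Submodule.le_topologicalClosure _ (Submodule.subset_span ⟨n, hn, k, hk, rfl⟩)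

theorem hull_inv {N : VonNeumannAlgebra H} {K : Submodule ℂ H} {T : H →L[ℂ] H}
    (hT : ∀ n ∈ N, ∀ k ∈ K, T (n k) ∈ hull N K) {x : H} (hx : x ∈ hull N K) :
    T x ∈ hull N K := by
  have h : hull N K ≤ (hull N K).comap T.toLinearMap := by
    refine Submodule.topologicalClosure_minimal _ (Submodule.span_le.2 ?_)
      ((Submodule.isClosed_topologicalClosure _).preimage T.continuous)
    rintro _ ⟨n, hn, k, hk, rfl⟩
    exact hT n hn k hk
  exact h hx

theorem hull_comm {N : VonNeumannAlgebra H} {K : Submodule ℂ H} {T : H →L[ℂ] H}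
    (hT : ∀ n ∈ N, ∀ k ∈ K, T (n k) ∈ hull N K)
    (hT' : ∀ n ∈ N, ∀ k ∈ K, star T (n k) ∈ hull N K) :
    T * (hull N K).starProjection = (hull N K).starProjection * T := by
  refine ContinuousLinearMap.ext fun x => ?_
  rw [mul_apply_eq_comp, mul_apply_eq_comp]
  refine (Submodule.eq_starProjection_of_mem_orthogonal
    (hull_inv hT ((hull N K).starProjection_apply_mem x)) ?_).symm
  rw [← map_sub, Submodule.mem_orthogonal]
  intro y hy
  rw [← ContinuousLinearMap.adjoint_inner_left, ← ContinuousLinearMap.star_eq_adjoint]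
  exact Submodule.inner_right_of_mem_orthogonal (hull_inv hT' hy)
    ((hull N K).sub_starProjection_mem_orthogonal x)

/-- No element of the commutant of `M` vanishes on `K` except zero. -/
def Full (M : VonNeumannAlgebra H) (K : Submodule ℂ H) [CompleteSpace K] : Prop :=
  ∀ a ∈ M.commutant, a * K.starProjection = 0 → a = 0

theorem hull_mem_commutant (N : VonNeumannAlgebra H) (K : Submodule ℂ H) :
    (hull N K).starProjection ∈ N.commutant :=
  VonNeumannAlgebra.mem_commutant_iff.2 fun n hn => hull_comm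
    (fun m hm k hk => mem_hull (mul_mem hn hm) hk)
    (fun m hm k hk => mem_hull (mul_mem (star_mem hn) hm) hk)

theorem Full.dense {N : VonNeumannAlgebra H} {K : Submodule ℂ H} [CompleteSpace K]
    (h : Full N K) : hull N K = ⊤ := by
  have e := h (1 - (hull N K).starProjection) (sub_mem (one_mem _) (hull_mem_commutant N K)) ?_
  · refine Submodule.eq_top_iff'.2 fun x => Submodule.starProjection_eq_self_iff.1 ?_
    exact (DFunLike.congr_fun (sub_eq_zero.1 e) x).symm
  · refine ContinuousLinearMap.ext fun x => ?_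
    show (1 - (hull N K).starProjection) (K.starProjection x) = 0
    rw [sub_apply, one_apply_eq_self, sub_eq_zero, eq_comm, Submodule.starProjection_eq_self_iff]
    simpa using mem_hull (n := 1) (one_mem N) (K.starProjection_apply_mem x)

theorem full_of_factor {M : VonNeumannAlgebra H} (hM : Lit.IsFactor H M) {K : Submodule ℂ H}
    [CompleteSpace K] (hK : K ≠ ⊥) (hP : K.starProjection ∈ M) : Full M K := by
  intro a ha haK
  set q := (hull M K).starProjection with hq
  have hqc := hull_mem_commutant M K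
  have hc : ∀ c ∈ M.commutant, ∀ n ∈ M, ∀ k ∈ K, c (n k) ∈ hull M K := by
    intro c hc n hn k hk
    rw [show c (n k) = (c * n) k from rfl, ← VonNeumannAlgebra.mem_commutant_iff.1 hc n hn]
    refine mem_hull hn ?_
    have e := DFunLike.congr_fun (comm_proj K hP hc) k
    rw [mul_apply_eq_comp, mul_apply_eq_comp, Submodule.starProjection_eq_self_iff.2 hk] at e
    exact Submodule.starProjection_eq_self_iff.1 e.symm
  have hqM : q ∈ M := by
    rw [← SetLike.mem_coe, ← M.centralizer_centralizer]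
    intro b hb'
    have hb : b ∈ M.commutant := VonNeumannAlgebra.mem_commutant_iff.2 hb'
    exact hull_comm (hc b hb) (hc _ (star_mem hb))
  obtain ⟨c, hcq⟩ := hM q hqM fun y hy h =>
    (DFunLike.congr_fun (VonNeumannAlgebra.mem_commutant_iff.1 hqc y hy) h).symm
  obtain ⟨k, hk, hk0⟩ := (Submodule.ne_bot_iff _).1 hK
  have e : q k = k := Submodule.starProjection_eq_self_iff.2 <| by
    simpa using mem_hull (n := 1) (one_mem M) hk
  have hc1 : c = 1 := by
    rw [hcq, ← sub_eq_zero, show c • k - k = (c - 1) • k by rw [sub_smul, one_smul], smul_eq_zero,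
      sub_eq_zero] at e
    exact e.resolve_right hk0
  refine ContinuousLinearMap.ext fun x => ?_
  have hx : x ∈ hull M K := by
    rw [← Submodule.starProjection_eq_self_iff, ← hq, hcq, hc1, one_smul]
  have h0 : hull M K ≤ LinearMap.ker a.toLinearMap := by
    refine Submodule.topologicalClosure_minimal _ (Submodule.span_le.2 ?_) a.isClosed_ker
    rintro _ ⟨n, hn, k, hk, rfl⟩
    show a (n k) = 0
    rw [show a (n k) = (a * n) k from rfl, ← VonNeumannAlgebra.mem_commutant_iff.1 ha n hn,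
      mul_apply_eq_comp]
    have e := DFunLike.congr_fun haK k
    rw [mul_apply_eq_comp, Submodule.starProjection_eq_self_iff.2 hk] at e
    rw [e]
    exact map_zero n
  simpa using h0 hx

variable {K : Submodule ℂ H} [CompleteSpace K]

theorem isClosed_commutant (M : VonNeumannAlgebra H) :
    IsClosed (M.commutant.toStarSubalgebra : Set (H →L[ℂ] H)) := by
  show IsClosed (M.commutant : Set (H →L[ℂ] H))
  rw [VonNeumannAlgebra.coe_commutant]
  exact Set.isClosed_centralizer _

theorem Full.norm_cmp {M : VonNeumannAlgebra H} (h : Full M K) (hP : K.starProjection ∈ M)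
    {a : H →L[ℂ] H} (ha : a ∈ M.commutant) : ‖cmp K a‖ = ‖a‖ := by
  haveI : IsClosed (M.commutant.toStarSubalgebra : Set (H →L[ℂ] H)) := isClosed_commutant M
  let φ : M.commutant.toStarSubalgebra →⋆ₐ[ℂ] (K →L[ℂ] K) :=
    { toFun := fun x => cmp K x
      map_one' := cmp_one K
      map_mul' := fun x y => cmp_mul_left K _ _ (comm_proj K hP x.2)
      map_zero' := by
        show cmp K 0 = 0
        exact ContinuousLinearMap.ext fun k => Subtype.ext <| by simp [cmp_apply]
      map_add' := fun x y => cmp_add K _ _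
      commutes' := fun c => by
        show cmp K (algebraMap ℂ (H →L[ℂ] H) c) = algebraMap ℂ (K →L[ℂ] K) c
        rw [Algebra.algebraMap_eq_smul_one, Algebra.algebraMap_eq_smul_one, cmp_smul, cmp_one]
      map_star' := fun x => (star_cmp K _).symm }
  have hinj : Function.Injective φ := fun x y e => Subtype.ext <| by
    have e' : cmp K ((x : H →L[ℂ] H) - y) = 0 := by
      rw [cmp_sub]
      exact sub_eq_zero.2 e
    have hxy : (x : H →L[ℂ] H) - y ∈ M.commutant := sub_mem x.2 y.2
    refine sub_eq_zero.1 (h _ hxy ?_)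
    have e2 := congrArg (ext' K) e'
    rw [ext'_cmp, ← comm_proj K hP hxy, mul_assoc, K.isIdempotentElem_starProjection.eq] at e2
    rw [e2]
    exact ContinuousLinearMap.ext fun _ => rfl
  exact NonUnitalStarAlgHom.norm_map φ hinj ⟨a, ha⟩

theorem exists_ext_unitary {N : VonNeumannAlgebra H} (hN : hull N K = ⊤) (hP : K.starProjection ∈ N)
    {w : K →L[ℂ] K} (hw : w ∈ unitary (K →L[ℂ] K))
    (hc : ∀ n ∈ N, w * cmp K n = cmp K n * w) : ∃ b ∈ N.commutant, ∀ k : K, b k = w k := by
  let g₀ : (N.toStarSubalgebra × K →₀ ℂ) →ₗ[ℂ] H :=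
    Finsupp.linearCombination ℂ fun p => (p.1 : H →L[ℂ] H) p.2
  let g₁ : (N.toStarSubalgebra × K →₀ ℂ) →ₗ[ℂ] H :=
    Finsupp.linearCombination ℂ fun p => (p.1 : H →L[ℂ] H) (w p.2 : K)
  have key : ∀ (n m : N.toStarSubalgebra) (k l : K),
      ⟪(n : H →L[ℂ] H) (w k : K), (m : H →L[ℂ] H) (w l : K)⟫_ℂ =
        ⟪(n : H →L[ℂ] H) k, (m : H →L[ℂ] H) l⟫_ℂ := by
    intro n m k l
    have hz : ∀ a b : K, ⟪(n : H →L[ℂ] H) a, (m : H →L[ℂ] H) b⟫_ℂ =
        ⟪a, cmp K (star (n : H →L[ℂ] H) * m) b⟫_ℂ := fun a b => by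
      rw [Submodule.coe_inner, cmp_apply, ← Submodule.inner_starProjection_left_eq_right, proj_coe,
        mul_apply_eq_comp, ContinuousLinearMap.star_eq_adjoint,
        ContinuousLinearMap.adjoint_inner_right]
    rw [hz, hz, ← mul_apply_eq_comp (cmp K _) w, ← hc _ (mul_mem (star_mem n.2) m.2),
      mul_apply_eq_comp]
    exact ContinuousLinearMap.inner_map_map_of_mem_unitary hw _ _
  have hnorm : ∀ f, ‖g₁ f‖ = ‖g₀ f‖ := fun f => by
    rw [@norm_eq_sqrt_re_inner ℂ, @norm_eq_sqrt_re_inner ℂ]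
    congr 2
    simp only [g₀, g₁, Finsupp.linearCombination_apply, Finsupp.sum, sum_inner, inner_sum,
      inner_smul_left, inner_smul_right, key]
  have hd : DenseRange g₀ := by
    have hle : Submodule.span ℂ {x | ∃ n ∈ N, ∃ k ∈ K, n k = x} ≤ LinearMap.range g₀ := by
      refine Submodule.span_le.2 ?_
      rintro _ ⟨n, hn, k, hk, rfl⟩
      exact ⟨Finsupp.single (⟨n, hn⟩, ⟨k, hk⟩) 1, by simp [g₀]⟩
    have : Dense ((Submodule.span ℂ {x | ∃ n ∈ N, ∃ k ∈ K, n k = x} : Submodule ℂ H) : Set H) :=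
      Submodule.dense_iff_topologicalClosure_eq_top.2 hN
    exact this.mono hle
  let b := g₁.extendOfNorm g₀
  have hb : ∀ f, b (g₀ f) = g₁ f := fun f =>
    LinearMap.extendOfNorm_eq hd ⟨1, fun x => by rw [hnorm x, one_mul]⟩ f
  have hb1 : ∀ (n : N.toStarSubalgebra) (k : K),
      b ((n : H →L[ℂ] H) k) = (n : H →L[ℂ] H) (w k : K) := fun n k => by
    simpa [g₀, g₁] using hb (Finsupp.single (n, k) 1)
  refine ⟨b, VonNeumannAlgebra.mem_commutant_iff.2 fun m hm => ?_, fun k => ?_⟩
  · have e : ∀ f, (m * b) (g₀ f) = (b * m) (g₀ f) := by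
      intro f
      induction f using Finsupp.induction_linear with
      | zero => simp
      | add f g hf hg => rw [map_add, map_add, map_add, hf, hg]
      | single p c =>
        obtain ⟨n, k⟩ := p
        simp only [g₀, Finsupp.linearCombination_single, map_smul, mul_apply_eq_comp, hb1]
        exact congrArg (c • ·) (hb1 ⟨m * n, mul_mem hm n.2⟩ k).symm
    exact DFunLike.coe_injective (hd.equalizer (m * b).continuous (b * m).continuous (funext e))
  · have e := hb1 1 k
    simpa using e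

theorem exists_ext {M N : VonNeumannAlgebra H} (hN : hull N K = ⊤) (hPM : K.starProjection ∈ M)
    (hPN : K.starProjection ∈ N) (hc : ∀ n ∈ N, ∃ m ∈ M, cmp K m = cmp K n)
    {a : H →L[ℂ] H} (ha : a ∈ M.commutant) :
    ∃ b ∈ N.commutant, b * K.starProjection = a * K.starProjection := by
  haveI : IsClosed (M.commutant.toStarSubalgebra : Set (H →L[ℂ] H)) := isClosed_commutant M
  have main : ∀ x : M.commutant.toStarSubalgebra,
      ∃ b ∈ N.commutant, b * K.starProjection = (x : H →L[ℂ] H) * K.starProjection := by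
    intro x
    have hx : x ∈ Submodule.span ℂ (unitary M.commutant.toStarSubalgebra : Set _) := by
      rw [CStarAlgebra.span_unitary]; trivial
    induction hx using Submodule.span_induction with
    | mem v hv =>
      have hw : cmp K (v : H →L[ℂ] H) ∈ unitary (K →L[ℂ] K) := by
        obtain ⟨h1, h2⟩ := Unitary.mem_iff.1 hv
        have h1' := congrArg Subtype.val h1
        have h2' := congrArg Subtype.val h2
        refine Unitary.mem_iff.2 ⟨?_, ?_⟩ <;> rw [star_cmp, ← cmp_mul_left K _ _ ?_]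
        · exact (congrArg (cmp K) h1').trans (cmp_one K)
        · exact comm_proj K hPM (star_mem v.2)
        · exact (congrArg (cmp K) h2').trans (cmp_one K)
        · exact comm_proj K hPM v.2
      obtain ⟨b, hb, hbk⟩ := exists_ext_unitary hN hPN hw fun n hn => by
        obtain ⟨m, hm, e⟩ := hc n hn
        rw [← e, ← cmp_mul_left K _ _ (comm_proj K hPM v.2),
          ← cmp_mul_right K _ _ (comm_proj K hPM v.2),
          VonNeumannAlgebra.mem_commutant_iff.1 v.2 m hm]
      refine ⟨b, hb, ContinuousLinearMap.ext fun z => ?_⟩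
      have e := hbk (K.orthogonalProjectionOnto z)
      rw [cmp_apply] at e
      rw [mul_apply_eq_comp, mul_apply_eq_comp]
      refine e.trans ?_
      have e2 := DFunLike.congr_fun (comm_proj K hPM v.2) (K.starProjection z)
      rw [mul_apply_eq_comp, mul_apply_eq_comp,
        Submodule.starProjection_eq_self_iff.2 (K.starProjection_apply_mem z)] at e2
      exact e2.symm
    | zero => exact ⟨0, zero_mem _, by simp⟩
    | add x y _ _ hx hy =>
      obtain ⟨b, hb, e⟩ := hx
      obtain ⟨b', hb', e'⟩ := hy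
      exact ⟨b + b', add_mem hb hb', by simp [add_mul, e, e']⟩
    | smul c x _ hx =>
      obtain ⟨b, hb, e⟩ := hx
      exact ⟨c • b, N.commutant.toStarSubalgebra.toSubalgebra.smul_mem hb c,
        by simp [smul_mul_assoc, e]⟩
  exact main ⟨a, ha⟩

/-- A bound on the unit ball bounds every element. -/
theorem near_scaled {S T : StarSubalgebra ℂ (H →L[ℂ] H)} {c : ℝ}
    (h : ∀ x ∈ S, ‖x‖ ≤ 1 → ∃ y ∈ T, ‖x - y‖ ≤ c) {x : H →L[ℂ] H} (hx : x ∈ S) :
    ∃ y ∈ T, ‖x - y‖ ≤ c * ‖x‖ := by
  rcases eq_or_ne x 0 with rfl | h0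
  · exact ⟨0, zero_mem _, by simp⟩
  have hn : 0 < ‖x‖ := norm_pos_iff.2 h0
  obtain ⟨y, hy, hxy⟩ := h ((‖x‖⁻¹ : ℂ) • x) (S.toSubalgebra.smul_mem hx _)
    (by rw [norm_smul]; simp [hn.ne'])
  refine ⟨(‖x‖ : ℂ) • y, T.toSubalgebra.smul_mem hy _, ?_⟩
  have hne : (‖x‖ : ℂ) ≠ 0 := Complex.ofReal_ne_zero.2 hn.ne'
  have e : x - (‖x‖ : ℂ) • y = (‖x‖ : ℂ) • ((‖x‖⁻¹ : ℂ) • x - y) := by
    rw [smul_sub, smul_smul, mul_inv_cancel₀ hne, one_smul]
  rw [e, norm_smul, Complex.norm_real, Real.norm_eq_abs, abs_norm, mul_comm]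
  exact mul_le_mul_of_nonneg_right hxy hn.le

/-- Commutants of algebras with a common corner: the map induced by the corner. -/
theorem rigid : ∃ C γ₀ : ℝ, 0 < γ₀ ∧ 0 ≤ C ∧ ∀ (H : Type u) [NormedAddCommGroup H]
    [InnerProductSpace ℂ H] [CompleteSpace H] (M N : VonNeumannAlgebra H) (K : Submodule ℂ H)
    [CompleteSpace K] (γ : ℝ), Full M K → K.starProjection ∈ M →
    K.starProjection ∈ N → (∀ m ∈ M, ∃ n ∈ N, cmp K n = cmp K m) →
    (∀ n ∈ N, ∃ m ∈ M, cmp K m = cmp K n) → Lit.IsClose H M N γ → 0 ≤ γ → γ < γ₀ →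
    NearConj M N (C * γ) := by
  obtain ⟨C₁, hC₁, hcn⟩ := commutant_near.{u}
  obtain ⟨C₂, hC₂, hrn⟩ := rep_near.{u}
  refine ⟨C₂ * (2 * C₁), 1 / (2 * C₁ * (C₂ + 1) + 1), by positivity, by positivity, ?_⟩
  intro H _ _ _ M N K _ γ fM hPM hPN hMN hNM hclose hγ0 hlt
  have hsmall : 2 * C₁ * (C₂ + 1) * γ < 1 := by
    rw [lt_div_iff₀ (by positivity)] at hlt
    linarith
  have cM : ∀ a ∈ N.commutant, ∃ b ∈ M.commutant, ‖a - b‖ ≤ C₁ * γ * ‖a‖ := fun a ha =>
    near_scaled (S := N.commutant.toStarSubalgebra) (T := M.commutant.toStarSubalgebra)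
      (fun x hx hx1 => by
        obtain ⟨b, hb, hxb⟩ := hcn H M.toStarSubalgebra N.toStarSubalgebra γ hγ0
          (fun z hz hz1 => hclose.1 z hz hz1) x
          (Set.mem_centralizer_iff.2 (VonNeumannAlgebra.mem_commutant_iff.1 hx)) hx1
        exact ⟨b, VonNeumannAlgebra.mem_commutant_iff.2 hb, hxb⟩) ha
  have cN : ∀ a ∈ M.commutant, ∃ b ∈ N.commutant, ‖a - b‖ ≤ C₁ * γ * ‖a‖ := fun a ha =>
    near_scaled (S := M.commutant.toStarSubalgebra) (T := N.commutant.toStarSubalgebra)
      (fun x hx hx1 => by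
        obtain ⟨b, hb, hxb⟩ := hcn H N.toStarSubalgebra M.toStarSubalgebra γ hγ0
          (fun z hz hz1 => hclose.2 z hz hz1) x
          (Set.mem_centralizer_iff.2 (VonNeumannAlgebra.mem_commutant_iff.1 hx)) hx1
        exact ⟨b, VonNeumannAlgebra.mem_commutant_iff.2 hb, hxb⟩) ha
  have fN : Full N K := fun a ha haK => by
    obtain ⟨b, hb, hab⟩ := cM a ha
    have hb2 : ‖b‖ ≤ C₁ * γ * ‖a‖ := by
      rw [← fM.norm_cmp hPM hb]
      have : cmp K b = cmp K (b - a) := by
        rw [cmp_sub]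
        have : cmp K a = 0 := by
          refine ContinuousLinearMap.ext fun k => Subtype.ext ?_
          have e := DFunLike.congr_fun haK (k : H)
          rw [mul_apply_eq_comp, proj_coe] at e
          rw [cmp_apply, e]
          simp
        rw [this, sub_zero]
      rw [this]
      exact (norm_cmp_le K _).trans (by rwa [norm_sub_rev])
    have : ‖a‖ ≤ 2 * (C₁ * γ) * ‖a‖ := by
      linarith [norm_le_norm_add_norm_sub' a b]
    have h1 : 2 * (C₁ * γ) < 1 := by nlinarith [mul_nonneg (mul_nonneg hC₁ hγ0) hC₂]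
    exact norm_eq_zero.1 (by nlinarith [norm_nonneg a])
  choose φ hφmem hφ using fun a : M.commutant.toStarSubalgebra =>
    exists_ext fN.dense hPM hPN hNM a.2
  have uniq : ∀ b ∈ N.commutant, ∀ b' ∈ N.commutant,
      b * K.starProjection = b' * K.starProjection → b = b' := fun b hb b' hb' e =>
    sub_eq_zero.1 (fN _ (sub_mem hb hb') (by rw [sub_mul, e, sub_self]))
  have hcP : ∀ b ∈ N.commutant, b * K.starProjection = K.starProjection * b := fun b hb =>
    comm_proj K hPN hb
  let θ : M.commutant.toStarSubalgebra →⋆ₐ[ℂ] (H →L[ℂ] H) :=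
    { toFun := φ
      map_one' := uniq _ (hφmem 1) _ (one_mem _) (hφ 1)
      map_mul' := fun x y => uniq _ (hφmem _) _ (mul_mem (hφmem x) (hφmem y)) <| by
        rw [hφ, mul_assoc (φ x), hφ y, comm_proj K hPM y.2, ← mul_assoc (φ x), hφ x,
          mul_assoc (x : H →L[ℂ] H), ← comm_proj K hPM y.2, ← mul_assoc]
        rfl
      map_zero' := uniq _ (hφmem 0) _ (zero_mem _) (by rw [hφ 0]; rfl)
      map_add' := fun x y => uniq _ (hφmem _) _ (add_mem (hφmem x) (hφmem y)) <| by
        rw [hφ, add_mul, hφ, hφ, ← add_mul]; rfl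
      commutes' := fun c => uniq _ (hφmem _) _
        (N.commutant.toStarSubalgebra.toSubalgebra.algebraMap_mem c) (by rw [hφ]; rfl)
      map_star' := fun x => uniq _ (hφmem _) _ (star_mem (hφmem x)) <| by
        rw [hφ]
        have e := congrArg star (hφ x)
        rw [star_mul, star_mul, (isSelfAdjoint_starProjection K).star_eq] at e
        rw [hcP _ (star_mem (hφmem x)), e, ← comm_proj K hPM (star_mem x.2)]
        rfl }
  have hnear : ∀ x : M.commutant.toStarSubalgebra,
      ‖θ x - (x : H →L[ℂ] H)‖ ≤ 2 * (C₁ * γ) * ‖(x : H →L[ℂ] H)‖ := fun x => by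
    obtain ⟨b, hb, hxb⟩ := cN x x.2
    have h1 : ‖φ x - b‖ ≤ C₁ * γ * ‖(x : H →L[ℂ] H)‖ := by
      rw [← fN.norm_cmp hPN (sub_mem (hφmem x) hb)]
      have : cmp K (φ x - b) = cmp K ((x : H →L[ℂ] H) - b) := by
        refine ContinuousLinearMap.ext fun k => Subtype.ext ?_
        have e := DFunLike.congr_fun (hφ x) (k : H)
        rw [mul_apply_eq_comp, mul_apply_eq_comp, proj_coe] at e
        rw [cmp_apply, cmp_apply, sub_apply, sub_apply, e]
      rw [this]
      exact (norm_cmp_le K _).trans hxb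
    have := norm_sub_le_norm_sub_add_norm_sub (φ x) b (x : H →L[ℂ] H)
    rw [norm_sub_rev b] at this
    show ‖φ x - _‖ ≤ _
    linarith
  obtain ⟨u, hu, hu1, hue⟩ := hrn H M.commutant.toStarSubalgebra θ (2 * (C₁ * γ)) (by positivity)
    (by nlinarith [mul_nonneg hC₁ hγ0]) hnear
  obtain ⟨huu, huu'⟩ := Unitary.mem_iff.1 hu
  have surj : ∀ b ∈ N.commutant, ∃ a : M.commutant.toStarSubalgebra, θ a = b := fun b hb => by
    obtain ⟨a, ha, e⟩ := exists_ext fM.dense hPN hPM hMN hb
    exact ⟨⟨a, ha⟩, uniq _ (hφmem _) _ hb ((hφ _).trans e)⟩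
  refine ⟨u, isUnitaryOp_of_unitary hu, hu1.trans_eq (by ring), fun x hx => ?_, fun y hy => ?_⟩
  · refine ⟨u * x * star u, ?_, intertwines_of_eq hu rfl⟩
    rw [← SetLike.mem_coe, ← N.centralizer_centralizer]
    intro b hb
    obtain ⟨a, rfl⟩ := surj b (VonNeumannAlgebra.mem_commutant_iff.2 hb)
    rw [hue a]
    have e := VonNeumannAlgebra.mem_commutant_iff.1 a.2 x hx
    have k2 : ∀ z : H →L[ℂ] H, star u * (u * z) = z := fun z => by rw [← mul_assoc, huu, one_mul]
    simp only [mul_assoc, k2]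
    rw [← mul_assoc (a : H →L[ℂ] H) x, ← e, mul_assoc]
  · refine ⟨star u * y * u, ?_, intertwines_of_eq hu ?_⟩
    · rw [← SetLike.mem_coe, ← M.centralizer_centralizer]
      intro a ha
      set a' : M.commutant.toStarSubalgebra := ⟨a, VonNeumannAlgebra.mem_commutant_iff.2 ha⟩
      have e := VonNeumannAlgebra.mem_commutant_iff.1 (hφmem a') y hy
      rw [show φ a' = u * a * star u from hue a'] at e
      have k2 : ∀ z : H →L[ℂ] H, star u * (u * z) = z := fun z => by
        rw [← mul_assoc, huu, one_mul]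
      have e' := congrArg (fun z => star u * z * u) e
      simp only [mul_assoc, k2, huu, mul_one] at e' ⊢
      exact e'.symm
    · have k1 : ∀ z : H →L[ℂ] H, u * (star u * z) = z := fun z => by
        rw [← mul_assoc, huu', one_mul]
      simp only [mul_assoc, k1, huu', mul_one]

end Vale.Agent.P096.Two
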