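import Vale.Agent.P096.Two.Rigid

/-!
A conjugacy of a full corner extends to the algebras.
-/

namespace Vale.Agent.P096.Two

open scoped InnerProductSpace

universe u

variable {H : Type u} [NormedAddCommGroup H] [InnerProductSpace ℂ H] [CompleteSpace H]

/-- A projection near an element of `N` is moved into `N` by a unitary near the identity. -/
theorem exists_move {P x : H →L[ℂ] H} (hP : IsStarProjection P) {N : VonNeumannAlgebra H}
    (hx : x ∈ N) {γ : ℝ} (hxP : ‖P - x‖ ≤ γ) (hγ : γ ≤ 1 / 256) :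
    ∃ v : unitary (H →L[ℂ] H), ‖(v : H →L[ℂ] H) - 1‖ ≤ 160 * γ ∧
      (v : H →L[ℂ] H) * P * star (v : H →L[ℂ] H) ∈ N := by
  rcases subsingleton_or_nontrivial (H →L[ℂ] H) with hs | hs
  · refine ⟨1, ?_, ?_⟩
    · simp only [OneMemClass.coe_one, sub_self, norm_zero]
      linarith [(norm_nonneg _).trans hxP]
    · rw [Subsingleton.elim (((1 : unitary (H →L[ℂ] H)) : H →L[ℂ] H) * P *
        star ((1 : unitary (H →L[ℂ] H)) : H →L[ℂ] H)) 0]
      exact zero_mem N
  have hγ0 : 0 ≤ γ := (norm_nonneg _).trans hxP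
  have hPs : star P = P := hP.isSelfAdjoint.star_eq
  have hPP : P * P = P := hP.isIdempotentElem.eq
  set h : H →L[ℂ] H := (1 / 2 : ℂ) • (x + star x) with hh
  have hhs : IsSelfAdjoint h := by simp [hh, IsSelfAdjoint, star_smul, add_comm]
  have hhN : h ∈ N := by
    have hs : x + star x ∈ N := add_mem hx (star_mem hx)
    exact N.toStarSubalgebra.toSubalgebra.smul_mem hs _
  have hd : ‖h - P‖ ≤ γ := by
    have e : h - P = (1 / 2 : ℂ) • ((x - P) + star (x - P)) := by
      rw [hh, star_sub, hPs]; module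
    rw [e, norm_smul]
    refine (mul_le_mul_of_nonneg_left (norm_add_le _ _) (norm_nonneg _)).trans ?_
    rw [norm_star, norm_sub_rev x P]
    norm_num
    linarith
  have hPn : ‖P‖ ≤ 1 := hP.norm_le
  have hhh : ‖h * h - h‖ ≤ 4 * γ := by
    have e : h * h - h = (h - P) * (h - P) + (h - P) * P + P * (h - P) - (h - P) := by
      simp only [mul_sub, sub_mul, hPP]; abel
    rw [e]
    refine (norm_sub_le _ _).trans ((add_le_add ((norm_add₃_le).trans (add_le_add_three
      (norm_mul_le _ _) (norm_mul_le _ _) (norm_mul_le _ _))) le_rfl).trans ?_)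
    nlinarith [norm_nonneg (h - P), norm_nonneg P]
  have hspec : ∀ t ∈ spectrum ℝ h, |t| ≤ 8 * γ ∨ |t - 1| ≤ 8 * γ := fun t ht => by
    have e : cfc (fun s : ℝ => s * s - s) h = h * h - h := by
      rw [cfc_sub (fun s : ℝ => s * s) (fun s => s) h, cfc_mul (fun s : ℝ => s) (fun s => s) h,
        cfc_id' ℝ h]
    have h4 := norm_apply_le_norm_cfc (fun s : ℝ => s * s - s) h ht
    rw [e, Real.norm_eq_abs, show t * t - t = t * (t - 1) by ring, abs_mul] at h4
    rcases le_or_gt (1 / 2) |t| with h2 | h2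
    · right; nlinarith [abs_nonneg (t - 1)]
    · left
      have : 1 / 2 ≤ |t - 1| := by
        have := abs_lt.1 h2
        rw [abs_of_nonpos (by linarith)]; linarith
      nlinarith [abs_nonneg t]
  set g : ℝ → ℝ := fun t => if t < 1 / 2 then 0 else 1 with hg
  have hgv : ∀ t ∈ spectrum ℝ h, |g t - t| ≤ 8 * γ ∧ t ≠ 1 / 2 := fun t ht => by
    rcases hspec t ht with h1 | h1 <;> have := abs_le.1 h1
    · refine ⟨?_, by linarith⟩
      simp only [hg, if_pos (show t < 1 / 2 by linarith)]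
      simpa using h1
    · refine ⟨?_, by linarith⟩
      simp only [hg, if_neg (show ¬ t < 1 / 2 by linarith)]
      rwa [abs_sub_comm]
  have hgc : ContinuousOn g (spectrum ℝ h) := fun t ht => ContinuousAt.continuousWithinAt <| by
    rcases lt_or_gt_of_ne (hgv t ht).2 with h1 | h1
    · exact (continuousAt_const (y := (0 : ℝ))).congr
        (Filter.eventually_of_mem (Iio_mem_nhds h1) fun s hs => (if_pos hs).symm)
    · exact (continuousAt_const (y := (1 : ℝ))).congr
        (Filter.eventually_of_mem (Ioi_mem_nhds h1) fun s hs => (if_neg (not_lt.2 (le_of_lt hs))).symm)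
  set f := cfc g h with hf
  have hfs : IsSelfAdjoint f := cfc_predicate g h
  have hff : f * f = f := by
    rw [hf, ← cfc_mul g g h hgc hgc]
    exact cfc_congr fun t _ => by simp only [hg]; split_ifs <;> norm_num
  have hfN : f ∈ N := by
    rw [← SetLike.mem_coe, ← N.centralizer_centralizer]
    intro a ha
    exact (Commute.cfc_real (show Commute h a from ha h hhN) g).eq.symm
  have hfh : ‖f - h‖ ≤ 8 * γ := by
    have e : cfc (fun t => g t - t) h = f - h := by
      rw [cfc_sub g (fun t => t) h hgc, cfc_id' ℝ h, hf]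
    rw [← e]
    exact norm_cfc_le (by positivity) fun t ht => (hgv t ht).1
  have hfP : ‖f - P‖ ≤ 9 * γ := by
    linarith [norm_sub_le_norm_sub_add_norm_sub f h P]
  have hfn : ‖f‖ ≤ 1 := IsStarProjection.norm_le f ⟨hff, hfs⟩
  set w : H →L[ℂ] H := f * P + (1 - f) * (1 - P) with hw
  have hw1 : ‖w - 1‖ ≤ 20 * γ := by
    have e : w - 1 = (f - P) * P - (f - P) * (1 - P) := by
      simp only [hw, mul_sub, sub_mul, mul_one, one_mul, hPP]; abel
    rw [e]
    have h2 : ‖(1 : H →L[ℂ] H) - P‖ ≤ 1 := hP.one_sub.norm_le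
    refine (norm_sub_le _ _).trans ((add_le_add (norm_mul_le _ _) (norm_mul_le _ _)).trans ?_)
    nlinarith [norm_nonneg (f - P)]
  have hint : f * w = w * P := by
    have a1 : f * (1 - f) = 0 := by rw [mul_sub, mul_one, hff, sub_self]
    have a2 : (1 - P) * P = 0 := by rw [sub_mul, one_mul, hPP, sub_self]
    rw [hw, mul_add, add_mul, ← mul_assoc, hff, ← mul_assoc, a1, zero_mul, add_zero, mul_assoc,
      hPP, mul_assoc, a2, mul_zero, add_zero]
  have hcomm : Commute (star w * w) P := by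
    have e : star w * w = P * f * P + (1 - P) * (1 - f) * (1 - P) := by
      have b1 : ∀ z : H →L[ℂ] H, f * (f * z) = f * z := fun z => by rw [← mul_assoc, hff]
      have b2 : ∀ z : H →L[ℂ] H, f * ((1 - f) * z) = 0 := fun z => by
        rw [← mul_assoc, mul_sub, mul_one, hff, sub_self, zero_mul]
      have b3 : ∀ z : H →L[ℂ] H, (1 - f) * (f * z) = 0 := fun z => by
        rw [← mul_assoc, sub_mul, one_mul, hff, sub_self, zero_mul]
      have b4 : ∀ z : H →L[ℂ] H, (1 - f) * ((1 - f) * z) = (1 - f) * z := fun z => by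
        have e0 : (1 - f) * (1 - f) = 1 - f := by
          simp only [mul_sub, sub_mul, one_mul, mul_one, hff, sub_self, sub_zero]
        rw [← mul_assoc, e0]
      simp only [hw, star_add, star_mul, star_sub, star_one, hPs, hfs.star_eq, mul_add, add_mul,
        mul_assoc, b1, b2, b3, b4, mul_zero, add_zero, zero_add]
    show star w * w * P = P * (star w * w)
    have c1 : (1 - P) * P = 0 := by rw [sub_mul, one_mul, hPP, sub_self]
    have c2 : ∀ z : H →L[ℂ] H, P * ((1 - P) * z) = 0 := fun z => by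
      rw [← mul_assoc, mul_sub, mul_one, hPP, sub_self, zero_mul]
    have c3 : ∀ z : H →L[ℂ] H, P * (P * z) = P * z := fun z => by rw [← mul_assoc, hPP]
    simp only [e, add_mul, mul_add, mul_assoc, hPP, c1, c2, c3, mul_zero, add_zero]
  obtain ⟨v, hv, hv1, hve⟩ := polar_near (δ := 20 * γ) (by linarith) hw1
  refine ⟨⟨v, hv⟩, by linarith, ?_⟩
  show v * P * star v ∈ N
  rwa [← hve P f hint hcomm]

/-- A conjugacy of one corner extends to a conjugacy of the algebras. -/
theorem conj_of_corner (C : ℝ) (hC : 0 ≤ C) : ∃ δ L : ℝ, 0 < δ ∧ 0 ≤ L ∧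
    ∀ (H : Type u) [NormedAddCommGroup H] [InnerProductSpace ℂ H] [CompleteSpace H]
    (M N : VonNeumannAlgebra H) (K : Submodule ℂ H) [CompleteSpace K] (γ : ℝ),
    Full M K → K.starProjection ∈ M → γ < δ → Lit.IsClose H M N γ →
    (∀ N₁ : VonNeumannAlgebra H, K.starProjection ∈ N₁ →
      Lit.IsClose K (corner K M) (corner K N₁) (700 * γ) →
      NearConj (corner K M) (corner K N₁) (C * (700 * γ))) →
    NearConj M N (L * γ) := by
  obtain ⟨Cr, γ₀, hγ₀, hCr, hR⟩ := rigid.{u}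
  set L := 700 * (1 + 8 * C) with hL
  have hL0 : 0 < L := by positivity
  refine ⟨min (1 / 256) (min (1 / (700 * C + 1)) (γ₀ / L)), Cr * L + 700 * C + 160,
    by positivity, by positivity, ?_⟩
  intro H _ _ _ M N K _ γ hF hPM hlt hclose solve
  simp only [lt_min_iff] at hlt
  obtain ⟨h256, hC1, hr⟩ := hlt
  have hC'0 := hC
  have hA := isCorner_corner K M hPM
  set P := K.starProjection with hPdef
  have hPs : IsStarProjection P := isStarProjection_starProjection
  have hPn : ‖P‖ ≤ 1 := K.starProjection_norm_le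
  obtain ⟨x, hx, hxP⟩ := hclose.1 P hPM hPn
  have hxP' : ‖P - x‖ ≤ γ := hxP
  have hγ0 : 0 ≤ γ := (norm_nonneg _).trans hxP'
  obtain ⟨v, hv1, hvN⟩ := exists_move hPs hx hxP' h256.le
  set N₁ := conjAlg v N
  have hPN₁ : P ∈ N₁ := mem_conjAlg.2 hvN
  set γ₁ := γ + 2 * ‖(v : H →L[ℂ] H) - 1‖ * (1 + γ)
  have hγ₁ : γ₁ ≤ 700 * γ := by
    have : 2 * ‖(v : H →L[ℂ] H) - 1‖ * (1 + γ) ≤ 2 * (160 * γ) * 2 := by gcongr <;> linarith
    linarith
  have hclose₁ : Lit.IsClose H M N₁ γ₁ := close_conjAlg hclose v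
  have hB := isCorner_corner K N₁ hPN₁
  have hAB : Lit.IsClose K (corner K M) (corner K N₁) γ₁ := by
    constructor
    · intro b hb hb1
      obtain ⟨y, hy, hxy⟩ := hclose₁.1 _ (ext'_mem K hA hPM hb) ((norm_ext'_le K b).trans hb1)
      refine ⟨cmp K y, (hB _).2 ⟨y, hy, rfl⟩, ?_⟩
      show ‖b - cmp K y‖ ≤ γ₁
      rw [← cmp_ext' K b, ← cmp_sub]
      exact (norm_cmp_le K _).trans hxy
    · intro b hb hb1
      obtain ⟨y, hy, hxy⟩ := hclose₁.2 _ (ext'_mem K hB hPN₁ hb) ((norm_ext'_le K b).trans hb1)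
      refine ⟨cmp K y, (hA _).2 ⟨y, hy, rfl⟩, ?_⟩
      show ‖b - cmp K y‖ ≤ γ₁
      rw [← cmp_ext' K b, ← cmp_sub]
      exact (norm_cmp_le K _).trans hxy
  have hAB' : Lit.IsClose K (corner K M) (corner K N₁) (700 * γ) :=
    ⟨fun z hz h1 => (hAB.1 z hz h1).imp fun y hy => ⟨hy.1, hy.2.trans hγ₁⟩,
      fun z hz h1 => (hAB.2 z hz h1).imp fun y hy => ⟨hy.1, hy.2.trans hγ₁⟩⟩
  obtain ⟨w, hw, hw1, hwAB, hwBA⟩ := solve N₁ hPN₁ hAB'
  have hwU := unitary_of_isUnitaryOp hw
  obtain ⟨hww, hww'⟩ := Unitary.mem_iff.1 hwU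
  have hw1' : ‖w - 1‖ ≤ 700 * C * γ := hw1.trans_eq (by ring)
  set W : H →L[ℂ] H := ext' K w + (1 - P)
  have hsub : ∀ a b : K →L[ℂ] K, ext' K (a - b) = ext' K a - ext' K b := fun a b =>
    ContinuousLinearMap.ext fun _ => by simp [ext'_apply]
  have e1 : ext' K 1 = P := ContinuousLinearMap.ext fun _ => rfl
  have eP : ∀ a : K →L[ℂ] K, ext' K a * P = ext' K a := fun a => by
    rw [← e1, ← ext'_mul, mul_one]
  have Pe : ∀ a : K →L[ℂ] K, P * ext' K a = ext' K a := fun a => by
    rw [← e1, ← ext'_mul, one_mul]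
  have hWs : star W = ext' K (star w) + (1 - P) := by
    simp only [W, star_add, star_sub, star_one, hPs.isSelfAdjoint.star_eq, star_ext']
  have hprod : ∀ a b : K →L[ℂ] K, a * b = 1 →
      (ext' K a + (1 - P)) * (ext' K b + (1 - P)) = 1 := fun a b hab => by
    have hPP : P * P = P := hPs.isIdempotentElem.eq
    simp only [mul_add, add_mul, mul_sub, sub_mul, mul_one, one_mul, eP, Pe, hPP, ← ext'_mul, hab,
      e1]
    abel
  have hWu : W ∈ unitary (H →L[ℂ] H) :=
    Unitary.mem_iff.2 ⟨by rw [hWs]; exact hprod _ _ hww, by rw [hWs]; exact hprod _ _ hww'⟩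
  have hWP : W * P = P * W := by
    simp only [W, add_mul, mul_add, sub_mul, mul_sub, one_mul, mul_one, eP, Pe,
      hPs.isIdempotentElem.eq]
  have hW1 : ‖W - 1‖ ≤ 700 * C * γ := by
    rw [show W - 1 = ext' K (w - 1) by rw [hsub, e1]; simp only [W]; abel]
    exact (norm_ext'_le K _).trans hw1'
  set v' : unitary (H →L[ℂ] H) := ⟨W, hWu⟩
  set N₂ := conjAlg v' N₁
  have hPN₂ : P ∈ N₂ := by
    rw [mem_conjAlg]
    show W * P * star W ∈ N₁
    rw [hWP, mul_assoc, (Unitary.mem_iff.1 hWu).2, mul_one]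
    exact hPN₁
  have hcW : cmp K W = w := by
    simp only [W, cmp_add, cmp_ext']
    have : cmp K (1 - P) = 0 := ContinuousLinearMap.ext fun k => Subtype.ext <| by
      rw [cmp_apply, sub_apply, one_apply_eq_self, hPdef, proj_coe]
      simp
    rw [this, add_zero]
  have hWP' : star W * P = P * star W := by
    have := congrArg star hWP
    simpa [star_mul, hPs.isSelfAdjoint.star_eq] using this.symm
  have hconj : ∀ n : H →L[ℂ] H, cmp K (W * n * star W) = w * cmp K n * star w := fun n => by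
    rw [cmp_mul_right K _ _ hWP', cmp_mul_left K _ _ hWP, ← star_cmp, hcW]
  have hc1 : ∀ m ∈ M, ∃ n ∈ N₂, cmp K n = cmp K m := fun m hm => by
    obtain ⟨y, hy, hxy⟩ := hwAB (cmp K m) ((hA _).2 ⟨m, hm, rfl⟩)
    obtain ⟨n, hn, hny⟩ := (hB y).1 hy
    have hny' : cmp K n = y := hny
    refine ⟨star W * n * W, mem_conjAlg.2 ?_, ?_⟩
    · show W * (star W * n * W) * star W ∈ N₁
      rw [show W * (star W * n * W) * star W = (W * star W) * n * (W * star W) by
        simp only [mul_assoc], (Unitary.mem_iff.1 hWu).2, one_mul, mul_one]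
      exact hn
    · rw [cmp_mul_right K _ _ hWP, cmp_mul_left K _ _ hWP', ← star_cmp, hcW, hny',
        eq_of_intertwines hwU hxy, show star w * (w * cmp K m * star w) * w =
          (star w * w) * cmp K m * (star w * w) by simp only [mul_assoc], hww, one_mul, mul_one]
  have hc2 : ∀ n ∈ N₂, ∃ m ∈ M, cmp K m = cmp K n := fun n hn => by
    obtain ⟨x, hx, hxy⟩ := hwBA (cmp K (W * n * star W))
      ((hB _).2 ⟨_, mem_conjAlg.1 hn, rfl⟩)
    obtain ⟨m, hm, hmx⟩ := (hA x).1 hx
    have hmx' : cmp K m = x := hmx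
    refine ⟨m, hm, ?_⟩
    have e := eq_of_intertwines hwU hxy
    rw [hconj] at e
    have e' := congrArg (fun z => star w * z * w) e
    simp only [mul_assoc, hww, mul_one] at e'
    simp only [← mul_assoc, hww, one_mul] at e'
    rw [hmx', e']
  have hclose₂ : Lit.IsClose H M N₂ (γ₁ + 2 * ‖W - 1‖ * (1 + γ₁)) := close_conjAlg hclose₁ v'
  have hbd : γ₁ + 2 * ‖W - 1‖ * (1 + γ₁) ≤ L * γ := by
    have h2 : γ₁ ≤ 3 := by linarith
    have : 2 * ‖W - 1‖ * (1 + γ₁) ≤ 2 * (700 * C * γ) * 4 := by gcongr; linarith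
    rw [hL]
    nlinarith [mul_nonneg hC'0 hγ0]
  have hclose₂' : Lit.IsClose H M N₂ (L * γ) :=
    ⟨fun z hz h1 => (hclose₂.1 z hz h1).imp fun y hy => ⟨hy.1, hy.2.trans hbd⟩,
      fun z hz h1 => (hclose₂.2 z hz h1).imp fun y hy => ⟨hy.1, hy.2.trans hbd⟩⟩
  have hfin := nearConj_of_conjAlg v (nearConj_of_conjAlg v'
    (hR H M N₂ K (L * γ) hF hPM hPN₂ hc1 hc2 hclose₂' (by positivity)
      (by rw [lt_div_iff₀ hL0] at hr; linarith)))
  obtain ⟨u, hu, hu1, h1, h2⟩ := hfin
  refine ⟨u, hu, hu1.trans ?_, h1, h2⟩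
  show Cr * (L * γ) + ‖W - 1‖ + ‖(v : H →L[ℂ] H) - 1‖ ≤ _
  linarith

end Vale.Agent.P096.Two
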