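import Vale.Agent.P096.Lit.Statement

/-!
P096: the strong Kadison-Kastler statement for type II factors with separable predual. A factor is
of type II (II_1 or II_∞) iff one of its corners is a II_1 factor; the corner of `M` at a subspace
`K` is the algebra of the compressions of the elements of `M` to `K`.
-/

namespace Vale.Agent.P096.Two

universe u

variable (H : Type u) [NormedAddCommGroup H] [InnerProductSpace ℂ H] [CompleteSpace H]

/-- `A` consists of the compressions of the elements of `M` to `K`. -/
def IsCorner (M : VonNeumannAlgebra H) (K : Submodule ℂ H) [CompleteSpace K]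
    (A : VonNeumannAlgebra K) : Prop :=
  ∀ x : K →L[ℂ] K,
    x ∈ A ↔ ∃ m ∈ M, (K.orthogonalProjectionOnto).comp (m.comp K.subtypeL) = x

/-- `M` is a factor with a nonzero projection whose corner is a countably generated factor of
type II_1. -/
def IsTypeTwoFactor (M : VonNeumannAlgebra H) : Prop :=
  Lit.IsFactor H M ∧ ∃ (K : Submodule ℂ H) (_ : CompleteSpace K) (A : VonNeumannAlgebra K),
    K ≠ ⊥ ∧ K.starProjection ∈ M ∧ IsCorner H M K A ∧
      Lit.IsTypeTwoOneFactor K A ∧ Lit.IsCountablyGenerated K A

/-- Close algebras, one of them a type II factor with separable predual, are conjugate by a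
unitary near the identity, with absolute constants. -/
def Target : Prop :=
  ∃ δ C : ℝ, 0 < δ ∧ ∀ (H : Type u) [NormedAddCommGroup H] [InnerProductSpace ℂ H]
    [CompleteSpace H] (M N : VonNeumannAlgebra H) (γ : ℝ),
    IsTypeTwoFactor H M → γ < δ → Lit.IsClose H M N γ → NearConj M N (C * γ)

end Vale.Agent.P096.Two
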