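import Vale.Agent.P096.Bridge
import Vale.Agent.P096.Two.Statement

/-!
Compressions to a subspace whose projection lies in a von Neumann algebra, and operators moved by
a unitary.
-/

namespace Vale.Agent.P096.Two

open scoped InnerProductSpace

universe u

variable {H : Type u} [NormedAddCommGroup H] [InnerProductSpace ℂ H] [CompleteSpace H]
  (K : Submodule ℂ H) [CompleteSpace K]

/-- The compression to `K`. -/
noncomputable def cmp (x : H →L[ℂ] H) : K →L[ℂ] K :=
  (K.orthogonalProjectionOnto).comp (x.comp K.subtypeL)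

/-- Extension by zero. -/
noncomputable def ext' (b : K →L[ℂ] K) : H →L[ℂ] H :=
  K.subtypeL.comp (b.comp K.orthogonalProjectionOnto)

theorem cmp_apply (x : H →L[ℂ] H) (k : K) : (cmp K x k : H) = K.starProjection (x k) := rfl

theorem ext'_apply (b : K →L[ℂ] K) (h : H) :
    ext' K b h = (b (K.orthogonalProjectionOnto h) : H) := rfl

theorem proj_coe (k : K) : K.starProjection (k : H) = k :=
  Submodule.starProjection_eq_self_iff.2 k.2

theorem cmp_ext' (b : K →L[ℂ] K) : cmp K (ext' K b) = b :=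
  ContinuousLinearMap.ext fun k => Subtype.ext <| by
    rw [cmp_apply, ext'_apply, Submodule.orthogonalProjectionOnto_mem_subspace_eq_self, proj_coe]

theorem ext'_cmp (x : H →L[ℂ] H) :
    ext' K (cmp K x) = K.starProjection * x * K.starProjection :=
  ContinuousLinearMap.ext fun _ => rfl

theorem ext'_mul (a b : K →L[ℂ] K) : ext' K (a * b) = ext' K a * ext' K b :=
  ContinuousLinearMap.ext fun h => by
    simp [ext'_apply, mul_apply_eq_comp]

theorem star_cmp (x : H →L[ℂ] H) : star (cmp K x) = cmp K (star x) := by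
  rw [ContinuousLinearMap.star_eq_adjoint, eq_comm, ContinuousLinearMap.eq_adjoint_iff]
  intro k l
  rw [Submodule.coe_inner, Submodule.coe_inner, cmp_apply, cmp_apply,
    Submodule.inner_starProjection_left_eq_right, proj_coe,
    ← Submodule.inner_starProjection_left_eq_right, proj_coe, ContinuousLinearMap.star_eq_adjoint,
    ContinuousLinearMap.adjoint_inner_left]

theorem star_ext' (b : K →L[ℂ] K) : star (ext' K b) = ext' K (star b) := by
  conv_lhs => rw [← cmp_ext' K b, ext'_cmp]
  rw [star_mul, star_mul, (isSelfAdjoint_starProjection K).star_eq, ← mul_assoc, ← ext'_cmp,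
    ← star_cmp, cmp_ext']

theorem norm_cmp_le (x : H →L[ℂ] H) : ‖cmp K x‖ ≤ ‖x‖ :=
  ContinuousLinearMap.opNorm_le_bound _ (norm_nonneg _) fun k => by
    show ‖(cmp K x k : H)‖ ≤ ‖x‖ * ‖(k : H)‖
    rw [cmp_apply]
    exact (K.norm_starProjection_apply_le _).trans (x.le_opNorm _)

theorem norm_ext'_le (b : K →L[ℂ] K) : ‖ext' K b‖ ≤ ‖b‖ :=
  ContinuousLinearMap.opNorm_le_bound _ b.opNorm_nonneg fun h => by
    rw [ext'_apply]
    show ‖b (K.orthogonalProjectionOnto h)‖ ≤ ‖b‖ * ‖h‖
    exact (b.le_opNorm _).trans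
      (mul_le_mul_of_nonneg_left (K.norm_orthogonalProjectionOnto_apply_le h) (norm_nonneg _))

theorem cmp_mul_left (x y : H →L[ℂ] H) (hx : x * K.starProjection = K.starProjection * x) :
    cmp K (x * y) = cmp K x * cmp K y :=
  ContinuousLinearMap.ext fun k => Subtype.ext <| by
    have e := DFunLike.congr_fun hx (y k)
    simp only [mul_apply_eq_comp] at e
    simp only [cmp_apply, mul_apply_eq_comp, e]
    exact (DFunLike.congr_fun K.isIdempotentElem_starProjection.eq _).symm

theorem cmp_mul_right (x y : H →L[ℂ] H) (hy : y * K.starProjection = K.starProjection * y) :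
    cmp K (x * y) = cmp K x * cmp K y :=
  ContinuousLinearMap.ext fun k => Subtype.ext <| by
    have e := DFunLike.congr_fun hy (k : H)
    simp only [mul_apply_eq_comp, proj_coe] at e
    simp only [cmp_apply, mul_apply_eq_comp, ← e]

theorem comm_proj {M : VonNeumannAlgebra H} {a : H →L[ℂ] H} (hK : K.starProjection ∈ M)
    (ha : a ∈ M.commutant) : a * K.starProjection = K.starProjection * a :=
  (VonNeumannAlgebra.mem_commutant_iff.1 ha _ hK).symm

/-- The corner of `N` at `K`. -/
noncomputable def corner (N : VonNeumannAlgebra H) : VonNeumannAlgebra K where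
  toStarSubalgebra := StarSubalgebra.centralizer ℂ (cmp K '' (N.commutant : Set (H →L[ℂ] H)))
  centralizer_centralizer' := by simp

theorem isCorner_corner (N : VonNeumannAlgebra H) (hK : K.starProjection ∈ N) :
    IsCorner H N K (corner K N) := by
  have hmem : ∀ b : K →L[ℂ] K,
      b ∈ corner K N ↔ ∀ a ∈ N.commutant, cmp K a * b = b * cmp K a := by
    intro b
    show b ∈ StarSubalgebra.centralizer ℂ (cmp K '' (N.commutant : Set (H →L[ℂ] H))) ↔ _
    rw [← SetLike.mem_coe, StarSubalgebra.coe_centralizer]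
    constructor
    · exact fun h a ha => h _ (Or.inl ⟨a, ha, rfl⟩)
    · rintro h x (⟨a, ha, rfl⟩ | ⟨a, ha, e⟩)
      · exact h a ha
      · rw [← star_star x, ← e, star_cmp]
        exact h _ (star_mem ha)
  intro b
  rw [hmem]
  constructor
  · intro h
    refine ⟨ext' K b, ?_, cmp_ext' K b⟩
    rw [← SetLike.mem_coe, ← N.centralizer_centralizer]
    intro a ha'
    have ha : a ∈ N.commutant := VonNeumannAlgebra.mem_commutant_iff.2 ha'
    have hP := comm_proj K hK ha
    have e := congrArg (ext' K) (h a ha)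
    rw [ext'_mul, ext'_mul, ext'_cmp] at e
    have l : ext' K b * K.starProjection = ext' K b := ContinuousLinearMap.ext fun x => by
      simp only [ext'_apply, mul_apply_eq_comp]
      congr 2
      exact Subtype.ext (DFunLike.congr_fun K.isIdempotentElem_starProjection.eq x)
    have r : K.starProjection * ext' K b = ext' K b := ContinuousLinearMap.ext fun x => by
      rw [mul_apply_eq_comp, ext'_apply, proj_coe]
    have e1 : K.starProjection * a * K.starProjection = a * K.starProjection := by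
      rw [← hP, mul_assoc, K.isIdempotentElem_starProjection.eq]
    rw [e1, mul_assoc a, r, hP, ← mul_assoc (ext' K b), l] at e
    exact e
  · rintro ⟨m, hm, rfl⟩ a ha
    show cmp K a * cmp K m = cmp K m * cmp K a
    rw [← cmp_mul_left K _ _ (comm_proj K hK ha), ← cmp_mul_right K _ _ (comm_proj K hK ha),
      ← VonNeumannAlgebra.mem_commutant_iff.1 ha m hm]

theorem ext'_mem {N : VonNeumannAlgebra H} {A : VonNeumannAlgebra K}
    (hA : IsCorner H N K A) (hK : K.starProjection ∈ N) {b : K →L[ℂ] K} (hb : b ∈ A) :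
    ext' K b ∈ N := by
  obtain ⟨m, hm, rfl⟩ := (hA b).1 hb
  show ext' K (cmp K m) ∈ N
  rw [ext'_cmp]
  exact mul_mem (mul_mem hK hm) hK

variable {K}

/-- `N` moved by the unitary `v`: the operators `x` with `v x v* ∈ N`. -/
noncomputable def conjAlg (v : unitary (H →L[ℂ] H)) (N : VonNeumannAlgebra H) :
    VonNeumannAlgebra H where
  toStarSubalgebra := StarSubalgebra.centralizer ℂ
    ((fun a => star (v : H →L[ℂ] H) * a * v) '' (N.commutant : Set (H →L[ℂ] H)))
  centralizer_centralizer' := by simp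

theorem mem_conjAlg {v : unitary (H →L[ℂ] H)} {N : VonNeumannAlgebra H} {x : H →L[ℂ] H} :
    x ∈ conjAlg v N ↔ (v : H →L[ℂ] H) * x * star (v : H →L[ℂ] H) ∈ N := by
  obtain ⟨hv, hv'⟩ := Unitary.mem_iff.1 v.2
  set w : H →L[ℂ] H := (v : H →L[ℂ] H)
  have k1 : ∀ z : H →L[ℂ] H, w * (star w * z) = z := fun z => by rw [← mul_assoc, hv', one_mul]
  have k2 : ∀ z : H →L[ℂ] H, star w * (w * z) = z := fun z => by rw [← mul_assoc, hv, one_mul]
  show x ∈ StarSubalgebra.centralizer ℂ
    ((fun a => star w * a * w) '' (N.commutant : Set (H →L[ℂ] H))) ↔ _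
  rw [← SetLike.mem_coe, StarSubalgebra.coe_centralizer]
  constructor
  · intro h
    rw [← SetLike.mem_coe, ← N.centralizer_centralizer]
    intro a ha'
    have e := h _ (Or.inl ⟨a, VonNeumannAlgebra.mem_commutant_iff.2 ha', rfl⟩)
    have e' := congrArg (fun z => w * z * star w) e
    simp only [mul_assoc, k1, hv', mul_one] at e'
    simpa only [mul_assoc] using e'
  · intro h a ha
    obtain ⟨b, hb, rfl⟩ : ∃ b ∈ N.commutant, star w * b * w = a := by
      rcases ha with ⟨b, hb, e⟩ | ⟨b, hb, e⟩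
      · exact ⟨b, hb, e⟩
      · refine ⟨star b, star_mem hb, ?_⟩
        rw [← star_star a, ← e]
        simp [star_mul, mul_assoc]
    have e := congrArg (fun z => star w * z * w) (VonNeumannAlgebra.mem_commutant_iff.1 hb _ h)
    simp only [mul_assoc, k2, hv, mul_one] at e ⊢
    exact e.symm

theorem norm_conj_sub_le {v : H →L[ℂ] H} (hv : v ∈ unitary (H →L[ℂ] H)) (x : H →L[ℂ] H) :
    ‖v * x * star v - x‖ ≤ 2 * ‖v - 1‖ * ‖x‖ := by
  have e : v * x * star v - x = ((v - 1) * x - x * (v - 1)) * star v := by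
    simp only [sub_mul, mul_sub, one_mul, mul_one, mul_assoc, (Unitary.mem_iff.1 hv).2]
    abel
  rw [e]
  refine (norm_mul_le _ _).trans ?_
  have h1 : ‖star v‖ ≤ 1 := ContinuousLinearMap.opNorm_le_bound _ zero_le_one fun z => by
    rw [one_mul]
    exact (Unitary.norm_map ⟨star v, Unitary.star_mem hv⟩ z).le
  refine (mul_le_of_le_one_right (norm_nonneg _) h1).trans ((norm_sub_le _ _).trans
    ((add_le_add (norm_mul_le _ _) (norm_mul_le _ _)).trans ?_))
  linarith

theorem close_conjAlg {M N : VonNeumannAlgebra H} {γ : ℝ} (h : Lit.IsClose H M N γ)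
    (v : unitary (H →L[ℂ] H)) :
    Lit.IsClose H M (conjAlg v N) (γ + 2 * ‖(v : H →L[ℂ] H) - 1‖ * (1 + γ)) := by
  obtain ⟨h1, h2⟩ := h
  set w : H →L[ℂ] H := (v : H →L[ℂ] H)
  have hw : w ∈ unitary (H →L[ℂ] H) := v.2
  obtain ⟨hv, hv'⟩ := Unitary.mem_iff.1 hw
  constructor
  · intro x hx hx1
    obtain ⟨y, hy, hxy⟩ := h1 x hx hx1
    have hxy' : ‖x - y‖ ≤ γ := hxy
    have hx1' : ‖x‖ ≤ 1 := hx1
    have hγ : 0 ≤ γ := (norm_nonneg _).trans hxy'
    refine ⟨star w * y * w, mem_conjAlg.2 ?_, ?_⟩
    · have e : w * (star w * y * w) * star w = y := by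
        rw [show w * (star w * y * w) * star w = (w * star w) * y * (w * star w) by
          simp only [mul_assoc], hv', one_mul, mul_one]
      rw [e]; exact hy
    show ‖x - star w * y * w‖ ≤ _
    have b := norm_conj_sub_le (Unitary.star_mem hw) y
    rw [star_star, show star w - 1 = star (w - 1) by simp, norm_star, norm_sub_rev] at b
    have hy1 : ‖y‖ ≤ 1 + γ := by
      have := norm_le_norm_add_norm_sub' y x
      rw [norm_sub_rev y x] at this
      linarith
    linarith [norm_sub_le_norm_sub_add_norm_sub x y (star w * y * w),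
      mul_le_mul_of_nonneg_left hy1 (by positivity : 0 ≤ 2 * ‖w - 1‖)]
  · intro y hy hy1
    have hy1' : ‖y‖ ≤ 1 := hy1
    obtain ⟨x, hx, hxy⟩ := h2 _ (mem_conjAlg.1 hy) (by
      show ‖w * y * star w‖ ≤ 1
      rwa [CStarRing.norm_mul_mem_unitary _ (Unitary.star_mem hw),
        CStarRing.norm_mem_unitary_mul _ hw])
    have hxy' : ‖w * y * star w - x‖ ≤ γ := hxy
    have hγ : 0 ≤ γ := (norm_nonneg _).trans hxy'
    refine ⟨x, hx, ?_⟩
    show ‖y - x‖ ≤ _
    have b := norm_conj_sub_le hw y
    rw [norm_sub_rev] at b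
    nlinarith [norm_sub_le_norm_sub_add_norm_sub y (w * y * star w) x, norm_nonneg (w - 1)]

theorem nearConj_of_conjAlg {M N : VonNeumannAlgebra H} {c : ℝ} (v : unitary (H →L[ℂ] H))
    (h : NearConj M (conjAlg v N) c) : NearConj M N (c + ‖(v : H →L[ℂ] H) - 1‖) := by
  obtain ⟨u, hu, hu1, h1, h2⟩ := h
  have hU := unitary_of_isUnitaryOp hu
  set w : H →L[ℂ] H := (v : H →L[ℂ] H)
  have hwu : w * u ∈ unitary (H →L[ℂ] H) := mul_mem v.2 hU
  have hu1' : ‖u - 1‖ ≤ c := hu1
  refine ⟨w * u, isUnitaryOp_of_unitary hwu, ?_, fun x hx => ?_, fun y hy => ?_⟩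
  · show ‖w * u - 1‖ ≤ _
    rw [show w * u - 1 = w * (u - 1) + (w - 1) by rw [mul_sub, mul_one]; abel]
    refine (norm_add_le _ _).trans ?_
    rw [CStarRing.norm_mem_unitary_mul _ v.2]
    linarith
  · obtain ⟨y, hy, hxy⟩ := h1 x hx
    refine ⟨w * y * star w, mem_conjAlg.1 hy, intertwines_of_eq hwu ?_⟩
    rw [eq_of_intertwines hU hxy]
    simp only [star_mul, mul_assoc]
  · obtain ⟨hv, hv'⟩ := Unitary.mem_iff.1 v.2
    have e : w * (star w * y * w) * star w = y := by
      rw [show w * (star w * y * w) * star w = (w * star w) * y * (w * star w) by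
        simp only [mul_assoc], hv', one_mul, mul_one]
    obtain ⟨x, hx, hxy⟩ := h2 (star w * y * w) (mem_conjAlg.2 (by rw [e]; exact hy))
    refine ⟨x, hx, intertwines_of_eq hwu ?_⟩
    rw [star_mul, ← e, eq_of_intertwines hU hxy]
    simp only [mul_assoc]

end Vale.Agent.P096.Two
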